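import Mathlib
import Vale.Agent.P321.Defs
import Vale.Agent.P321.Upper
import Vale.Agent.P321.LowMain

namespace Vale.Agent.Results.P321.LowerBound

open Vale.Agent.P321 Filter

theorem result : ∃ c : ℝ, 0 < c ∧ ∀ q : ℝ, 0 < q → q < 1 →
    (∃ (N : ℕ) (C : ℝ), ∀ n : ℕ, N ≤ n →
      Achievable q n (sampleComplexity q n) ∧
      (n : ℝ) ^ (c * Real.log (Real.log n)) ≤ (sampleComplexity q n : ℝ) ∧
      (sampleComplexity q n : ℝ) ≤ Real.exp (C * Real.log n ^ 52)) ∧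
    ¬ ∃ (A : ℝ) (d : ℕ), ∀ n : ℕ, 1 ≤ n → (sampleComplexity q n : ℝ) ≤ A * (n : ℝ) ^ d := by
  refine ⟨1 / 2560, by norm_num, fun q h0 h1 => ?_⟩
  obtain ⟨N, hN⟩ := lower_bound h0 h1
  obtain ⟨C, hC⟩ := upper h0 h1
  have h : ∀ n, Achievable q n (sampleComplexity q n) := fun n =>
    Nat.sInf_mem (s := {m | Achievable q n m}) (exists_achievable h0 h1 n)
  refine ⟨⟨max N 2, C, fun n hn => ?_⟩, ?_⟩
  · obtain ⟨m, hm, hm'⟩ := hC n (le_trans (le_max_right _ _) hn)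
    refine ⟨h n, hN n (le_trans (le_max_left _ _) hn) _ (h n), le_trans ?_ hm'⟩
    exact_mod_cast Nat.sInf_le (s := {m | Achievable q n m}) hm
  · rintro ⟨A, d, hA⟩
    have t1 : Tendsto (fun n : ℕ => (n : ℝ)) atTop atTop := tendsto_natCast_atTop_atTop
    have t2 : Tendsto (fun n : ℕ => Real.log (Real.log n)) atTop atTop :=
      Real.tendsto_log_atTop.comp (Real.tendsto_log_atTop.comp t1)
    obtain ⟨n, a1, a2, a3, a4⟩ := ((eventually_ge_atTop N).and ((eventually_ge_atTop 1).and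
      ((t1.eventually_gt_atTop A).and (t2.eventually_ge_atTop (2560 * (d + 1)))))).exists
    have n1 : (1 : ℝ) ≤ n := by exact_mod_cast a2
    have b1 := (hN n a1 _ (h n)).trans (hA n a2)
    have b2 : (n : ℝ) ^ ((d + 1 : ℕ) : ℝ) ≤ (n : ℝ) ^ (1 / 2560 * Real.log (Real.log n)) :=
      Real.rpow_le_rpow_of_exponent_le n1 (by push_cast; linarith)
    rw [Real.rpow_natCast, pow_succ] at b2
    have : (0 : ℝ) < (n : ℝ) ^ d := by positivity
    nlinarith

end Vale.Agent.Results.P321.LowerBound
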