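import Mathlib
import Vale.Agent.P321.Defs
import Vale.Agent.P321.Upper

namespace Vale.Agent.Results.P321.Quasipoly

open Vale.Agent.P321

theorem result (q : ℝ) (hq : 0 < q) (hq1 : q < 1) :
    ∃ C : ℝ, ∀ n : ℕ, 2 ≤ n → Achievable q n (sampleComplexity q n) ∧
      (sampleComplexity q n : ℝ) ≤ Real.exp (C * Real.log n ^ 52) := by
  obtain ⟨C, hC⟩ := upper hq hq1
  refine ⟨C, fun n hn => ?_⟩
  obtain ⟨m, hm, hm'⟩ := hC n hn
  refine ⟨Nat.sInf_mem (s := {m | Achievable q n m}) ⟨m, hm⟩, le_trans ?_ hm'⟩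
  exact_mod_cast Nat.sInf_le (s := {m | Achievable q n m}) hm

end Vale.Agent.Results.P321.Quasipoly
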